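import Vale.Agent.P006.A.All
import Vale.Agent.P006.L.All
import Vale.Agent.P006.S.ALL
import Vale.Agent.P006.S.BAL
import Vale.Agent.P006.S.BIL
import Vale.Agent.P006.S.BM
import Vale.Agent.P006.S.CEL
import Vale.Agent.P006.S.CUT
import Vale.Agent.P006.S.CV
import Vale.Agent.P006.S.DIV
import Vale.Agent.P006.S.DK
import Vale.Agent.P006.S.DUT
import Vale.Agent.P006.S.END
import Vale.Agent.P006.S.G0
import Vale.Agent.P006.S.GR
import Vale.Agent.P006.S.MU
import Vale.Agent.P006.S.PH
import Vale.Agent.P006.S.PL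
import Vale.Agent.P006.S.PR
import Vale.Agent.P006.S.ST2g
import Vale.Agent.P006.S.TH1
import Vale.Agent.P006.S.TH2
import Vale.Agent.P006.S.TH3
import Vale.Agent.P006.S.TH4
import Vale.Agent.P006.S.TH5
import Vale.Agent.P006.S.TH7
import Vale.Agent.P006.S.TI1
import Vale.Agent.P006.S.TI2
import Vale.Agent.P006.S.TT
import Vale.Agent.P006.S.VA
import Vale.Agent.P006.S.VI
import Vale.Agent.P006.S.VII

/-! P006: branch S, closed. -/

namespace Vale.Agent.P006.FS
open Vale.Agent.P006.S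

theorem th4 : TH4Stmt := th4S (th3S muS th1S (th2S (dkS (S.grS plS)) LAll.sla))
theorem th7 : TH7Stmt := th7S LAll.st1 st2gS (th5S (dutS th4) allS LAll.sla)
theorem tt : TTStmt := ttS th4 (balS th7 prS LAll.sl)
theorem bil : BILStmt := bilS (celS tt bmS) bmS
theorem cv : CVStmt := cvS AK.ct plS g0S
theorem sEnd : SEnd :=
  endS (vaS (viS (ti2S (S.ti1S cv g0S) bmS g0S) divS) (viiS bil divS bmS g0S) divS bmS g0S) cutS phS

end Vale.Agent.P006.FS
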