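import Vale.Agent.P006.F.I
import Vale.Agent.P006.F.S
import Vale.Agent.P006.D.All
import Vale.Agent.P006.M.All
import Vale.Agent.P006.M.WT
import Vale.Agent.P006.S.CMP
import Vale.Agent.P006.S.LOG
import Vale.Agent.P006.S.SM
import Vale.Agent.P006.S.UNL

/-! P006: Patterson's conjecture. -/

namespace Vale.Agent.P006

theorem sharp : Sharp :=
  S.unlS (S.logS (S.smS (M.mainS D.varAll FI.ti1) ⟨1000, M.wtS M.grS⟩) (S.cmpS S.cutS S.phS) FS.sEnd)

end Vale.Agent.P006
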