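import Vale.Agent.P006.A.All
import Vale.Agent.P006.L.All
import Vale.Agent.P006.MI.CB
import Vale.Agent.P006.MI.CU
import Vale.Agent.P006.MI.DL
import Vale.Agent.P006.MI.GC
import Vale.Agent.P006.MI.P0
import Vale.Agent.P006.MI.PL
import Vale.Agent.P006.MI.RHO
import Vale.Agent.P006.MI.TIE
import Vale.Agent.P006.MI.TW
import Vale.Agent.P006.MI.W0
import Vale.Agent.P006.MI.W8
import Vale.Agent.P006.MI.ZT
import Vale.Agent.P006.M.TI1

/-! P006: the averaged type I estimate, closed. -/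

namespace Vale.Agent.P006.FI
open Vale.Agent.P006.MI

theorem dl : DLStmt := dlS (rhoS AK.ct P026.Z.tiS AK.kS) twS (MI.w8S AK.env (MI.w0S gcS))
theorem ti1 : M.TI1Stmt := M.ti1S (tieS dl (cbS (MI.cuS p0S) p0S) (MI.plS LAll.sl p0S) ztS)

end Vale.Agent.P006.FI
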